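import Vale.Agent.P057EN.Mb

/-!
Two witnesses followed by an embedding.
-/

set_option linter.all false

open Matrix Finset Real
open Vale.Agent.P267.H775 Vale.Agent.P057G Vale.Agent.P057PC Vale.Agent.P057TP
open Vale.Agent.P057GH Vale.Agent.P057DP

namespace Vale.Agent.P057EA

variable {C W X₁ X₂ κ : Type} {T : Tow} {cl : W → C} {m s n : ℕ} {N L η ω K : ℝ} [Fintype W]
  [DecidableEq W] [Fintype X₁] [DecidableEq X₁] [Fintype X₂] [DecidableEq X₂] {O₁ : Ov W X₁}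
  {O₂ : Ov W X₂} {Z : Sys T W Unit} {g : X₁ → X₂} {σ₁ : X₁ → ℝ} {σ₂ : X₂ → ℝ} {P₁ : X₁ → Prop}
  {P₂ : X₂ → Prop}

/-- the vertices outside the image of `g` are removed -/
theorem wit_emb (hW : WIT) (h : ∀ x, O₂.π (g x) = O₁.π x) (hg : g.Injective)
    (hj : ∀ x, O₂.jk (g x) = O₁.jk x) (hσ : ∀ x, P₁ x → σ₂ (g x) = σ₁ x)
    (hP : ∀ x, P₁ x → P₂ (g x)) (b : C)
    (hD : ∀ x, P₂ x → (∃ y, P₁ y ∧ g y = x) ∨ cl (O₂.π x) = b) (hE : Env s N m Z n L η)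
    (hn : 4 * (Fintype.card X₂ + 1) ≤ n) (hS : Sb s L σ₂) (hω : 0 < ω) (hK : 1 ≤ K)
    (hL : 36 * K ^ 2 * ω ≤ L) {E : (LT T cl m O₁ → ℤ) → Prop} {Θ : κ → (LT T cl m O₁ → ℝ) → ℝ}
    (dE : Dp (b0 T cl m O₁ Unit Empty P₁) E) (hΘ : ∀ k, Fo cl m O₁ P₁ (Θ k)) :
    dn cl m Z O₂ σ₂ P₂ (fun z => E (z ∘ lt h ()) ∧
        ∀ k, NR cl m Z O₂ ω P₂ (fun x => Θ k (x ∘ lt h ())) K (toR z)) ^ 2 ≤
      2 * dn cl m Z O₁ σ₁ P₁ (fun z => E z ∧ ∀ k, NR cl m Z O₁ ω P₁ (Θ k) K (toR z)) + 12 * √η := by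
  have e : ∀ x, (P₂ x ∧ ¬ (P₂ x ∧ ¬ ∃ y, P₁ y ∧ g y = x)) ↔ ∃ y, P₁ y ∧ g y = x := fun x =>
    ⟨fun a => by_contra fun k => a.2 ⟨a.1, k⟩, fun ⟨y, a, k⟩ => ⟨k ▸ hP y a, fun d => d.2 ⟨y, a, k⟩⟩⟩
  refine (hW T s N C W X₂ κ Z cl m O₂ σ₂ P₂ (fun x => P₂ x ∧ ¬ ∃ y, P₁ y ∧ g y = x) b n L η ω K _ _
    hE hn hS (fun x a => (hD x a.1).resolve_left a.2) hω hK hL
    (dE.comp fun l a => lf_b0 (fun x k => (e _).2 ⟨x, k, rfl⟩) a)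
    fun k => P057EN.fo_lt h (fun x k => (e _).2 ⟨x, k, rfl⟩) (hΘ k)).trans (le_of_eq ?_)
  rw [← dn_emb h hg hj hσ e]
  simp only [nr_emb h hg hj e]
  rfl

end Vale.Agent.P057EA
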