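import Vale.Agent.P057DP.Pl2
import Vale.Agent.P057LU.CvC
import Vale.Agent.P057AL.Al
import Vale.Agent.P057AS.Conv
import Vale.Agent.P057DR.Drop
import Vale.Agent.P057RC.Root

/-!
The assembly of the energy step.
-/

set_option linter.all false

open Matrix Finset Real
open Vale.Agent.P267.H775 Vale.Agent.P057G Vale.Agent.P057MA Vale.Agent.P057PC
open Vale.Agent.P057TP hiding ind
open Vale.Agent.P057GH Vale.Agent.P057SG Vale.Agent.P057DP
open Vale.Agent.P057T1 (ind ind_pos ind_neg ind_nonneg ind_le abs_ind)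
open Vale.Agent.P057DR (summ_mul summ_P summ_L bdd_L tri_L)

namespace Vale.Agent.P057EA

noncomputable section

variable {s n p c : ℕ} {N θ A X γ : ℝ} {P : ℕ → ℝ} {T : Tow} {R : Type} [Fintype R] [DecidableEq R]
  {Z : Sys T (Uv n p R) Unit} {f : ℤ → ℝ}

theorem card_uv (h : Ctx s N c P T n p R Z f θ A) (hc : s + 3 ≤ c) :
    (Fintype.card (Wv n p) : ℝ) ≤ P (n + 2) ^ 3 ∧
      (Fintype.card (Uv n p R) : ℝ) + 1 ≤ P (n + 2) ^ 3 := by
  have := P057RC.card_vt h hc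
  simp only [Fintype.card_option, Fintype.card_sum] at this ⊢
  push_cast at this ⊢
  constructor <;> linarith [Nat.cast_nonneg (α := ℝ) (Fintype.card (Wv n p)),
    Nat.cast_nonneg (α := ℝ) (Fintype.card R)]

/-- the labels of the vertices have mass at most two -/
theorem mass_wP (h : Ctx s N c P T n p R Z f θ A) (hc : s + 3 ≤ c) :
    ∑' w : Pg T n p R → ℤ, wP Z w ≤ 2 := by
  have x1 : (s : ℝ) + 3 ≤ P (n + 2) := le_trans (by exact_mod_cast hc) (h.lad.big _)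
  have s0 : (0 : ℝ) ≤ s := Nat.cast_nonneg s
  have a1 : (s : ℝ) + 3 ≤ A := x1.trans h.PA
  have a2 : A ^ 3 ≤ A ^ c := pow_le_pow_right₀ (by linarith) (by omega)
  have a3 : ((s : ℝ) + 1) ^ s ≤ A ^ c :=
    (pow_le_pow_left₀ (by linarith) (by linarith) s).trans
      (pow_le_pow_right₀ (by linarith) (by omega))
  have a4 : (3 : ℝ) ^ 3 ≤ A ^ 3 := pow_le_pow_left₀ (by norm_num) (by linarith) 3
  have a5 := Real.pow_div_factorial_le_exp (A ^ c) (by linarith) 3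
  have hA := P057AL.al_lfd (cl := (cU : Uv n p R → _)) (m := n + 2) h.ok h.zok le_rfl h.lf
    (n' := Fintype.card (Uv n p R) + 1) (L := 1) (by
      push_cast
      exact (card_uv h hc).2.trans ((pow_le_pow_left₀ (by linarith) h.PA 3).trans a2)) (by
      generalize A ^ c = B at *
      norm_num [Nat.factorial] at a5 a4
      nlinarith [mul_le_mul_of_nonneg_left a3 (show 0 ≤ B + 1 by linarith),
        mul_le_mul_of_nonneg_right (a4.trans a2) (sq_nonneg B), sq_nonneg (B - 1)])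
  have k := (P057LU.conv s N T n p R Z h.ok h.zok).1 fun _ => 1
  simp only [mul_one] at k
  rw [← k, Er_const, one_mul]
  refine (hA _ Unit Empty (Ov.one _) _ 0 (by simp) (fun F _ => ?_) fun l => ?_).le
    (exp_le_one_iff.2 (by linarith)) (dc_ms (cq_b0 _))
  · split_ifs
    exacts [one_pos, sc_pos (fun _ => one_pos) F]
  · split_ifs
    · rfl
    · exact (prod_eq_one fun v _ => by cases v <;> rfl).le

/-- the labels with many base points -/
theorem mass_Q (h : Ctx s N c P T n p R Z f θ A) (hc : s + 3 ≤ c) (hX : P (n + 2) ≤ X) (hγ : 1 ≤ γ)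
    {Ω : (Pg T n p R → ℤ) → (Lg T n p R → ℤ) → Prop} (hB : Base Z γ X Ω) :
    exp (-(2 * X)) ≤ ∑' w, wP Z w * ind (exp (-(2 * X)) ≤ ∑' z, wL Z w z * ind (Ω w z)) := by
  have x1 : (s : ℝ) + 3 ≤ X := (le_trans (by exact_mod_cast hc) (h.lad.big _)).trans hX
  have s0 : (0 : ℝ) ≤ s := Nat.cast_nonneg s
  have hG := posDef_bk (pd_Gam h.ok.pd (cU : Uv n p R → _) Unit (n + 2)) Li
  have sP := summ_P (cl := (cU : Uv n p R → _)) (m := n + 2) h.ok h.zok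
  have m0 : ∀ w, 0 ≤ ∑' z, wL Z w z * ind (Ω w z) := fun w =>
    tsum_nonneg fun z => mul_nonneg (ng_nonneg _ _) (ind_nonneg _)
  have m2 : ∀ w, ∑' z, wL Z w z * ind (Ω w z) ≤ 2 := fun w => by
    by_cases e : ∃ z, Ω w z
    · obtain ⟨z, hz⟩ := e
      have k := P057AS.fine_mono (tri_L h.ok h.zok w) hG hG (a := 1) (b := 2 * γ) (by linarith)
        (fun v => (one_mul _).ge) (hB.2 w z hz).1 0
      simp only [sub_zero] at k
      refine le_trans (Summable.tsum_le_tsum (fun z => mul_le_of_le_one_right (ng_nonneg _ _)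
        (ind_le _)) (summ_mul (summ_L h.ok h.zok w) (fun _ => ng_nonneg _ _) fun _ => abs_ind _)
        (summ_L h.ok h.zok w)) k
    · simp only [ind_neg fun a => e ⟨_, a⟩, mul_zero, tsum_zero, Nat.ofNat_nonneg]
  have s1 := summ_mul sP (fun _ => ng_nonneg _ _) fun w =>
    abs_ind (exp (-(2 * X)) ≤ ∑' z, wL Z w z * ind (Ω w z))
  have k := hB.1.trans (Summable.tsum_le_tsum (g := fun w => 2 * (wP Z w *
      ind (exp (-(2 * X)) ≤ ∑' z, wL Z w z * ind (Ω w z))) + exp (-(2 * X)) * wP Z w) (fun w => by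
    have w0 : 0 ≤ wP Z w := ng_nonneg _ _
    by_cases e : exp (-(2 * X)) ≤ ∑' z, wL Z w z * ind (Ω w z)
    · rw [ind_pos e]
      nlinarith [m2 w, exp_pos (-(2 * X))]
    · rw [ind_neg e]
      nlinarith [not_le.1 e]) (summ_mul sP (fun _ => ng_nonneg _ _) fun w =>
      (abs_of_nonneg (m0 w)).trans_le (m2 w)) ((s1.mul_left _).add (sP.mul_left _)))
  rw [(s1.mul_left _).tsum_add (sP.mul_left _), tsum_mul_left, tsum_mul_left] at k
  have e1 : exp (-X) = exp X * exp (-(2 * X)) := by rw [← exp_add]; congr 1; ring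
  nlinarith [mass_wP h hc, add_one_le_exp X, exp_pos (-(2 * X))]

theorem en_of (h : Ctx s N c P T n p R Z f θ A) (hc : s + 3 ≤ c) {c' k j : ℕ} {y : ℝ}
    (h1 : P (n + 2) ≤ y) (h2 : y ≤ A) (h3 : 3 ≤ j) (h4 : j ≤ k) (h5 : k * c' ≤ c) :
    En s N c' (n + 2) Z (y ^ j) (A ^ k) := by
  have x1 : (s : ℝ) + 3 ≤ P (n + 2) := le_trans (by exact_mod_cast hc) (h.lad.big _)
  have s0 : (0 : ℝ) ≤ s := Nat.cast_nonneg s
  have y1 : 1 ≤ y := by linarith
  have y2 : y ≤ y ^ j := le_self_pow₀ y1 (by omega)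
  have a1 : (A ^ k) ^ c' ≤ A ^ c := by
    rw [← pow_mul]
    exact pow_le_pow_right₀ (by linarith) h5
  refine ⟨h.ok, h.zok, ?_, (pow_le_pow_left₀ (by linarith) h2 j).trans
    (pow_le_pow_right₀ (by linarith) h4), fun e => ?_, ?_, n + 1, le_rfl,
    P057RG.lfd_mono h.ok h.lf le_rfl a1 a1⟩
  · exact (Nat.cast_le.2 (by nlinarith)).trans ((h.lad.big _).trans (h1.trans y2))
  · refine (h.cx e).1.trans ((P057RG.lad_le h.lad e.zero_le).trans ?_)
    refine (le_exp_log _).trans (exp_le_exp.2 (h.lad.lg.trans ?_))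
    exact (P057RG.lad_le h.lad (by have := h.ns; omega)).trans (h1.trans y2)
  · linarith [(card_uv h hc).2, pow_le_pow_left₀ (by linarith) h1 3, pow_le_pow_right₀ y1 h3]

/-- **the energy step from its blocks** -/
theorem ena (s : ℕ) : ENA s := by
  rintro ⟨c₁, p₁, H₁⟩ ⟨c₂, p₂, H₂⟩ ⟨c₃, p₃, H₃⟩ ⟨c₄, p₄, H₄⟩
  obtain ⟨j, hj⟩ : ∃ j, j = c₁ + 3 := ⟨_, rfl⟩
  obtain ⟨k, hk⟩ : ∃ k, k = j * c₂ * c₃ := ⟨_, rfl⟩
  obtain ⟨c, hc⟩ : ∃ c, c = k * (c₂ + c₃ + c₄) + c₁ + s + 3 := ⟨_, rfl⟩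
  have j2 : j ≤ j * c₂ := Nat.le_mul_of_pos_right _ p₂
  have j3 : j * c₂ ≤ k := hk ▸ Nat.le_mul_of_pos_right _ p₃
  have c2 : k * c₂ ≤ c := by rw [hc, mul_add, mul_add]; omega
  have c3 : k * c₃ ≤ c := by rw [hc, mul_add, mul_add]; omega
  have c4 : k * c₄ ≤ c := by rw [hc, mul_add, mul_add]; omega
  have c5 : k ≤ c := (Nat.le_mul_of_pos_right _ p₄).trans c4
  have cs : s + 3 ≤ c := by omega
  refine ⟨c, by omega, fun N P T n p R _ _ Z f θ A γ lam sig X Y r ξ σ F Ω h hX hY hA g1 g2 l1 l2 gl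
    ⟨w1, _, _, ⟨H, w2, _⟩, w3, w4, w5⟩ => ?_⟩
  have x1 : (s : ℝ) + 3 ≤ P (n + 2) := le_trans (by exact_mod_cast cs) (h.lad.big _)
  have s0 : (0 : ℝ) ≤ s := Nat.cast_nonneg s
  have Y1 : 1 ≤ Y := by linarith
  have g3 : 1 ≤ γ := (one_le_exp (by positivity)).trans g1
  have l3 : 1 ≤ lam := g3.trans gl
  refine ⟨_, fun w a => a, mass_Q h cs hX g3 w4, fun y μ b U y1 y2 m1 m2 hU hQ hd => ?_⟩
  have y3 : 1 ≤ y := by linarith
  have y4 : ∀ {a b : ℕ}, a ≤ b → y ^ a ≤ y ^ b := fun e => pow_le_pow_right₀ y3 e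
  have y5 : ∀ {a : ℕ}, a ≤ c → exp (y ^ a) ≤ exp (Y ^ c) := fun e =>
    exp_le_exp.2 ((y4 e).trans (pow_le_pow_left₀ (by linarith) y2 c))
  have m3 : 1 ≤ μ := (one_le_exp (by positivity)).trans m1
  have a1 : 2 * A ≤ A ^ k := by
    have : A ^ 2 ≤ A ^ k := pow_le_pow_right₀ (by linarith) (by omega)
    nlinarith
  have a2 : exp A ≤ exp (A ^ k) := exp_le_exp.2 (by linarith)
  have a3 : lam * μ ≤ exp (A ^ k) :=
    (P057DR.mul_exp (by linarith) l2 m2).trans (exp_le_exp.2 (by linarith))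
  have e1 : ∀ {c' i : ℕ}, j ≤ i → i ≤ k → k * c' ≤ c → En s N c' (n + 2) Z (y ^ i) (A ^ k) :=
    fun a b d => en_of h cs (hX.trans y1) (y2.trans hA) (by omega) b d
  have k1 : (Fintype.card (Fin σ.t) : ℝ) ≤ X := le_trans (by simpa using w2.ht) w1
  have k2 : ∀ {i : ℕ}, j ≤ i → (Fintype.card (Fin σ.t) : ℝ) ≤ y ^ i := fun e =>
    k1.trans (y1.trans (le_self_pow₀ y3 (by omega)))
  have k3 : ∀ {i : ℕ}, j ≤ i → (Fintype.card (Wv n p) : ℝ) ≤ y ^ i := fun e =>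
    (card_uv h cs).1.trans ((pow_le_pow_left₀ (by linarith) (hX.trans y1) 3).trans (y4 (by omega)))
  have yc : exp (Y ^ c₁) ≤ exp (Y ^ c) := exp_le_exp.2 (pow_le_pow_right₀ Y1 (by omega))
  obtain ⟨x, xo, xθ, xd, xm⟩ := H₁ N P T n p R Z f θ A γ lam X Y (Fin σ.t) (frq σ ξ) F Ω
    (P057RC.ctx_mono h (by omega) (by omega)) hX hY hA (yc.trans g1) g2 (yc.trans l1) l2 k1 w3 w4
    (fun w z a => (w5 w z a).2) y U y1 y2 hU (fun D x a => (hQ D x a).2) hd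
  have o1 : ∀ {i : ℕ}, j ≤ i → x.Ok (exp (y ^ i) * γ) := fun e =>
    { xo with bd := fun F o => ⟨(xo.bd F o).1, (xo.bd F o).2.trans
        (mul_le_mul_of_nonneg_right (exp_le_exp.2 (y4 (by omega))) (by linarith))⟩ }
  have o2 : ∀ {i : ℕ}, j ≤ i → ∀ z, x.Pop Z (exp (-y ^ c₁)) z → x.Pop Z (exp (-y ^ i)) z :=
    fun e z a u b => (exp_le_exp.2 (neg_le_neg (y4 (by omega)))).trans (a u b)
  obtain ⟨Ψ, hΨ, d2⟩ := H₂ T N _ _ _ _ Z cU (n + 2) Sum.inl (fun _ => lam) (some b) (y ^ j) (A ^ k) γ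
    (lam * μ) x _ (e1 le_rfl (j2.trans j3) c2) (k3 le_rfl) (k2 le_rfl)
    (fun _ => ⟨l3, l2.trans a2⟩) g3 (g2.trans a2) (one_le_mul_of_one_le_of_one_le l3 m3) a3
    (o1 le_rfl) xd (fun z a => o2 le_rfl _ a.2)
    ((exp_le_exp.2 (neg_le_neg (y4 (by omega)))).trans xm)
  rw [← pow_mul] at d2
  have m4 : exp ((y ^ (j * c₂)) ^ c₃) ≤ μ := by
    rw [← pow_mul, ← hk]
    exact (exp_le_exp.2 (y4 c5)).trans m1
  have d3 := H₃ T N _ _ _ _ Z cU (n + 2) Sum.inl (fun _ => lam) (some b) (y ^ (j * c₂)) (A ^ k) γ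
    (lam * μ) x _ Ψ (e1 j2 j3 c3) ⟨Sum.inl (b, ⟨0, h.p1⟩), rfl⟩ (k3 j2) (k2 j2)
    (fun _ => ⟨l3, by nlinarith⟩) g3 (by nlinarith [exp_pos ((y ^ (j * c₂)) ^ c₃)]) a3 (o1 j2) xd
    (fun z a => o2 j2 _ a.2) hΨ d2
  rw [← pow_mul, ← hk] at d3
  obtain ⟨v1, -, v2⟩ := (P057LU.conv s N T n p R Z h.ok h.zok).2.2.2.2.2 lam γ U l3 g3 hU
  have d4 := H₄ T N n p R _ Z b (y ^ k) (A ^ k) γ lam μ x.θ (fun a => P057SG.fm (frq σ ξ a)) (ev U)
    (e1 (j2.trans j3) le_rfl c4) g3 (g2.trans a2) (by rw [← pow_mul]; exact (y5 c4).trans l1) m3 a3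
    (congrFun xθ) xo.fo v1 (d3.trans (dn_mono h.ok h.zok (by
      rintro (e | e) <;> simp only [σp, Sum.elim_inl, Sum.elim_inr]
      · linarith
      · split_ifs <;> positivity) fun z a => ⟨a.1.1, a.2⟩))
  rw [← pow_mul] at d4
  refine (exp_le_exp.2 (neg_le_neg (y4 c4))).trans (d4.trans ((dn_mono h.ok h.zok (by
    rintro (e | e) <;> simp only [s4, Sum.elim_inl, Sum.elim_inr]
    · split_ifs <;> positivity
    · exact one_pos) fun z a => ⟨a.1, fun r => NL.mono (a.2 r) (exp_le_exp.2 (y4 c4))⟩).trans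
    (v2 b μ _ _ _ m3 (exp_pos _).le)))

end

end Vale.Agent.P057EA
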