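import Vale.Agent.P057DP.Flp
import Vale.Agent.P057NL.Nlb

/-!
Extraction of the relations from a biased sum of forms on different stars.
-/

set_option linter.all false

open Matrix Finset Real
open Vale.Agent.P267.H775 Vale.Agent.P057G Vale.Agent.P057MA Vale.Agent.P057PC
open Vale.Agent.P057TP hiding ind
open Vale.Agent.P057GH Vale.Agent.P057RH Vale.Agent.P057DP
open Vale.Agent.P057T1 (ind ind_pos ind_neg ind_nonneg ind_le abs_ind ind_mono)
open Vale.Agent.P057EN (Cq cq_iff del_cub qq_blk_mono qq_blk_const)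

namespace Vale.Agent.P057EA

noncomputable section

variable {C W X K S κ : Type} {T : Tow} {cl : W → C} {m s n : ℕ} {N L η : ℝ} [Fintype X]
  [DecidableEq X] [Fintype K] [DecidableEq K] [Fintype S] {O : Ov W X} {P : X → Prop}
  {q : Finset (LK T cl m O K S)}

/-- the copy of the test system with the star vertex `e` -/
abbrev lk (O : Ov W X) (S : Type) (e : K) : LT T cl m O → LK T cl m O K S :=
  lt (g := id) (fun _ => rfl) e

theorem star_eq {l : LK T cl m O K S} {e e' : K} (h : Sum.inr e ∈ l.fc) (h' : Sum.inr e' ∈ l.fc) :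
    e = e' := Sum.inr_injective (l.2.2.1 h h' rfl)

theorem mem_lk {e : K} {l : LK T cl m O K S} : l ∈ (st T cl m O P).image (lk O S e) ↔
    Sum.inr e ∈ l.fc ∧ l.bs = none ∧ ∀ x, Sum.inl x ∈ l.fc → P x := by
  classical
  rw [mem_image]
  constructor
  · rintro ⟨l, a, rfl⟩
    refine ⟨inr_lf.2 ⟨(), (mem_st.1 a).1, rfl⟩, by rw [lf_bs, bs_lt]; rfl, fun x b => ?_⟩
    obtain ⟨y, d, rfl⟩ := inl_lf.1 b
    exact (mem_st.1 a).2 _ d
  · rintro ⟨a, b, d⟩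
    obtain ⟨l₁, rfl⟩ := lf_range (O₁ := O) (g := id) (k := fun _ : Unit => e)
      (t := (Empty.elim : Empty → S)) (fun _ => rfl) Function.injective_id (fun _ _ _ => rfl)
      (l := l) (fun x _ => ⟨x, rfl⟩) (fun u k => ⟨(), star_eq a k⟩) fun u k => by rw [b] at k; cases k
    exact ⟨l₁, mem_st.2 ⟨(inr_lf.1 a).choose_spec.1, fun x k => d x (inl_lf.2 ⟨x, k, rfl⟩)⟩, rfl⟩

theorem kp_lk {e : K} {l : LT T cl m O} :
    Kp (l.fc.image (Sum.map id fun _ => e)) (l.bs.map (Empty.elim : Empty → S)) ↔ Kp l.fc l.bs :=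
  kp_lf (O₂ := O) (h := fun _ => rfl)

theorem mem_r (hb : ∀ l ∈ q, l.bs = none) (hP : ∀ l ∈ q, ∀ x, Sum.inl x ∈ l.fc → P x)
    {l : LK T cl m O K S} : l ∈ q \ b0 T cl m O K S P ↔ l ∈ q ∧ ∃ e, Sum.inr e ∈ l.fc := by
  rw [Finset.mem_sdiff, mem_b0]
  exact and_congr_right fun a => ⟨fun k => by_contra fun d =>
    k ⟨⟨hb l a, fun e u => d ⟨e, u⟩⟩, hP l a⟩, fun ⟨e, u⟩ k => k.1.2 e u⟩

theorem lin_sum [Fintype κ] (hb : ∀ l ∈ q, l.bs = none)
    (hP : ∀ l ∈ q, ∀ x, Sum.inl x ∈ l.fc → P x) {e : κ → K} {Pk : κ → X → Prop}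
    {Θ : κ → (LT T cl m O → ℝ) → ℝ} (hΘ : ∀ k, Fo cl m O (Pk k) (Θ k))
    (hs : ∀ k, ∀ l ∈ st T cl m O (Pk k), lk O S (e k) l ∈ q) (y : LK T cl m O K S → ℝ) :
    IsLinearMap ℝ fun x => ∑ k, Θ k (mix (q \ b0 T cl m O K S P) x y ∘ lk O S (e k)) := by
  have : ∀ k x, Θ k (mix (q \ b0 T cl m O K S P) x y ∘ lk O S (e k)) = Θ k (mix (st T cl m O
      fun _ => True) (x ∘ lk O S (e k)) (y ∘ lk O S (e k))) := fun k x => (hΘ k).dp _ _ fun l hl => by
    refine if_congr ((mem_r hb hP).trans ⟨fun v => mem_st.2 ⟨?_, fun _ _ => trivial⟩, fun v => ?_⟩)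
      rfl rfl
    · exact (inr_lf.1 v.2.choose_spec).choose_spec.1
    · exact ⟨hs k l (mem_st.2 ⟨(mem_st.1 v).1, mem_bs.1 hl⟩), _, inr_lf.2 ⟨(), (mem_st.1 v).1, rfl⟩⟩
  simp only [this]
  exact ⟨fun x x' => by
    rw [← sum_add_distrib]; exact sum_congr rfl fun k _ => ((hΘ k).lin _).map_add _ _,
    fun t x => by rw [smul_sum]; exact sum_congr rfl fun k _ => ((hΘ k).lin _).map_smul t _⟩

/-- large fibre averages occur only on `G` or `B` -/
theorem cut {V ι : Type} [Fintype ι] [DecidableEq ι] {M : MS V ι} {p r : Finset ι} (h : Tr M)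
    (c1 : Cl M p) (c2 : Cl M (p ∪ r)) (hd : Disjoint p r) {Φ f : (ι → ℤ) → ℂ} (hΦ : ∀ z, ‖Φ z‖ ≤ 1)
    (dΦ : Dp p Φ) (hf : ∀ z, ‖f z‖ ≤ 1) {β ε ε' : ℝ} (hβ : 0 ≤ β) {G B : (ι → ℤ) → Prop}
    (k : ∀ y, Φ y ≠ 0 → β ≤ ‖Fb M r f y‖ → G y ∨ B y) (l1 : Er M p (fun y => |fm M r y - 1|) ≤ ε)
    (l2 : Er M p (fun y => ind (B y)) ≤ ε') (m2 : M.mass p ≤ 2) :
    ‖Ev M (p ∪ r) fun z => Φ z * f z‖ ≤ 2 * β + Er M p (fun y => ind (G y)) + ε + ε' := by
  have b1 := ((h.bd_fm r).sub (bd_const 1)).abs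
  rw [Ev_split h c1 (sat_of_union h.pd.1 c1.sat c2.sat hd) hd (C := 1) fun z => by
    rw [norm_mul]; exact mul_le_one₀ (hΦ z) (norm_nonneg _) (hf z)]
  refine (h.norm_Ev_le ((((bd_const β).add (bd_ind G)).add b1).add (bd_ind B)) fun y _ => ?_).trans ?_
  · rw [Fb_mul hd _ dΦ, norm_mul]
    have f1 := h.norm_Fb r hf y
    have f2 := mul_le_of_le_one_left (norm_nonneg (Fb M r f y)) (hΦ y)
    have f3 := le_abs_self (fm M r y - 1)
    have f4 := abs_nonneg (fm M r y - 1)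
    have f5 := ind_nonneg (G y)
    have f6 := ind_nonneg (B y)
    by_cases d1 : Φ y = 0
    · rw [d1, norm_zero, zero_mul]; linarith
    by_cases d2 : β ≤ ‖Fb M r f y‖
    · rcases k y d1 d2 with d | d <;> rw [ind_pos d] <;> linarith
    · linarith [not_le.1 d2]
  · rw [h.Er_add (((bd_const β).add (bd_ind _)).add b1) (bd_ind _),
      h.Er_add ((bd_const β).add (bd_ind _)) b1, h.Er_add (bd_const β) (bd_ind _), Er_const]
    linarith [mul_le_mul_of_nonneg_left m2 hβ]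

variable [Fintype W] [DecidableEq W] {Z : Sys T W Unit} {a : Finset (X ⊕ K) → Option S → ℝ}
  {c : LK T cl m O K S → ℝ}

/-- the masses of the fibres of the stars -/
theorem l1K (h : Env s N m Z n L η)
    (hn : Fintype.card X + 2 * Fintype.card K + Fintype.card S ≤ n) (ha : ∀ A o, 0 < a A o)
    (hL : ∀ l ∈ q, a l.fc l.bs ≤ L) (hq : Cq q) (h0 : b0 T cl m O K S P ⊆ q)
    (hb : ∀ l ∈ q, l.bs = none) (hP : ∀ l ∈ q, ∀ x, Sum.inl x ∈ l.fc → P x) :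
    Er (O.ms cl m Z K S a c) (b0 T cl m O K S P)
      (fun y => |fm (O.ms cl m Z K S a c) (q \ b0 T cl m O K S P) y - 1|) ≤ 3 * √η := by
  classical
  obtain ⟨d, Λ, h1, h2, h3⟩ := h.lf
  obtain ⟨h4, h5⟩ := h.le_div h3 (j := Fintype.card S) (by omega)
  have lo := lo_ms (O := O) h.ok h.zok ha c
  set M := O.ms cl m Z K S a c
  set q0 := b0 T cl m O K S P
  have u : q0 ∪ q \ q0 = q := union_sdiff_of_subset h0
  have c0 : Cl M q0 := (dc_ms (cq_b0 P)).cl lo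
  have c1 : Cl M (q0 ∪ q \ q0) := u.symm ▸ (dc_ms hq).cl lo
  let f : (LK T cl m O K S → ℤ) → ℝ := fun y => if 1 ≤ fm M (q \ q0) y then 1 else -1
  have f1 : ∀ y, |f y| ≤ 1 := fun y => by simp only [f]; split_ifs <;> simp
  have df : Dp q0 f := fun y y' hy => by
    have := dp_Fr c1 (f := fun _ => 1) (fun _ _ _ => rfl) y y' hy
    simp only [Fr_one] at this
    simp only [f, this]
  have k := del_cub (fun e : K => (Sum.inr e : X ⊕ K)) (c := c) h.ok (ok_pbo h.zok (O.j K) S) hq h1 h2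
    h.η1 (by rw [Fintype.card_sum]; omega) ha h4 (fun l hl => (hL l hl).trans h5) (q1 := q0)
    (fun l => mem_b0.trans ⟨fun k => ⟨h0 (mem_b0.2 k), k.1.2⟩,
      fun k => ⟨⟨hb l k.1, k.2⟩, hP l k.1⟩⟩) (f := fun y => (f y : ℂ)) (B := 1)
    (fun y => by rw [Complex.norm_real]; exact f1 y) (df.map fun x : ℝ => (x : ℂ))
  change ‖Ev M q _ - Ev M q0 _‖ ≤ _ at k
  have e1 : Er M q f = Er M q0 fun y => f y * fm M (q \ q0) y := by
    conv_lhs => rw [← u]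
    rw [lo.Er_split c0 (sat_of_union lo.pd.1 c0.sat c1.sat disjoint_sdiff) disjoint_sdiff ⟨1, f1⟩]
    congr 1
    funext y
    simpa only [mul_one, Fr_one] using Fr_mul (S := M) disjoint_sdiff (fun _ => 1) df y
  have e2 : (Er M q0 fun y => f y * fm M (q \ q0) y) =
      (Er M q0 fun y => |fm M (q \ q0) y - 1|) + Er M q0 f := by
    rw [← lo.Er_add ((lo.bd_fm _).sub (bd_const 1)).abs ⟨1, f1⟩]
    congr 1
    funext y
    simp only [f]
    split_ifs with b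
    · rw [abs_of_nonneg (by linarith)]; ring
    · rw [abs_of_neg (by linarith [not_le.1 b])]; ring
  rw [Ev_Er, Ev_Er, ← Complex.ofReal_sub, Complex.norm_real, mul_one, e1, e2, add_sub_cancel_right]
    at k
  exact (le_abs_self _).trans k

/-- a relation for the sum over the stars gives a relation on every star -/
theorem nl_star [Fintype κ] (hT : T.Ok s N) (hZ : Z.Ok) (ha : ∀ A o, 0 < a A o) (hq : Cq q)
    (h0 : b0 T cl m O K S P ⊆ q) (hb : ∀ l ∈ q, l.bs = none)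
    (hP : ∀ l ∈ q, ∀ x, Sum.inl x ∈ l.fc → P x) {e : κ → K} (he : e.Injective)
    {Pk : κ → X → Prop} {Θ : κ → (LT T cl m O → ℝ) → ℝ} (hΘ : ∀ k, Fo cl m O (Pk k) (Θ k))
    (hk : ∀ k x, Pk k x → P x) (hs : ∀ k, ∀ l ∈ st T cl m O (Pk k), lk O S (e k) l ∈ q)
    {y : LK T cl m O K S → ℝ} {B : ℝ} (hB : 0 ≤ B)
    (h : NL (O.ms cl m Z K S a 0) (q \ b0 T cl m O K S P) (fun x => ∑ k, Θ k (x ∘ lk O S (e k)))
      B y) (k : κ) : NL (O.ms cl m Z K S a 0) ((st T cl m O P).image (lk O S (e k)))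
      (fun x => Θ k (x ∘ lk O S (e k))) B y := by
  classical
  have lo := lo_ms (O := O) hT hZ ha (0 : LK T cl m O K S → ℝ)
  have lin := lin_ms (a := a) (c := 0) hT hZ (r := q \ b0 T cl m O K S P) (fun _ _ => rfl)
    (fun l hl => ⟨hb l ((mem_r hb hP).1 hl).1, ((mem_r hb hP).1 hl).2⟩)
    (fun l hl l' k1 k2 => (mem_r hb hP).trans (and_iff_right
      (hq l ((mem_r hb hP).1 hl).1 l' k1 (Or.inl k2)))) y
  set M := O.ms cl m Z K S a 0
  set r := q \ b0 T cl m O K S P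
  set r' := (st T cl m O P).image (lk O S (e k))
  have mr : ∀ {l}, l ∈ r ↔ l ∈ q ∧ ∃ e, Sum.inr e ∈ l.fc := mem_r hb hP
  have mr' : ∀ l ∈ q, l ∈ r' ↔ Sum.inr (e k) ∈ l.fc := fun l hl =>
    mem_lk.trans (and_iff_left ⟨hb l hl, hP l hl⟩)
  have key : ∀ x, ∀ l ∈ q, (∀ u, Sum.inr u ∈ l.fc → u = e k) →
      mix r (msk r' x) y l = mix r' x y l := fun x l hl b => by
    by_cases d : Sum.inr (e k) ∈ l.fc
    · rw [mix_pos _ _ (mr.2 ⟨hl, _, d⟩), mix_pos _ _ ((mr' l hl).2 d), msk_pos _ ((mr' l hl).2 d)]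
    · rw [mix_neg _ _ fun u => d ((mr' l hl).1 u), mix_neg _ _ fun u => ?_]
      obtain ⟨u, v⟩ := (mr.1 u).2
      exact d (b u v ▸ v)
  have inq : ∀ j, ∀ l ∈ b0 T cl m O Unit Empty (Pk j) ∪ st T cl m O (Pk j), lk O S (e j) l ∈ q :=
    fun j l hl => (mem_union.1 hl).elim (fun b => h0 (lf_b0 (hk j) b)) (hs j l)
  refine NL.move h hB (fun x => ?_) fun x => ?_
  · rw [sum_eq_single k (fun j _ b => ?_) (by simp)]
    · exact (hΘ k).dp _ _ fun l hl => key x _ (inq k l hl) fun u v => (inr_lf.1 v).choose_spec.2.symm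
    · refine Eq.trans ((hΘ j).dp _ _ fun l hl => ?_)
        ((hΘ j).lin (y ∘ lk O S (e j))).map_zero
      by_cases d : Sum.inr () ∈ l.fc
      · have d' : Sum.inr (e j) ∈ (lk O S (e j) l).fc := inr_lf.2 ⟨(), d, rfl⟩
        rw [mix_pos _ _ (mem_st.2 ⟨d, fun _ _ => trivial⟩), Function.comp_apply,
          mix_pos _ _ (mr.2 ⟨inq j l hl, _, d'⟩), msk_neg _ fun u => b (he (star_eq d' (mem_lk.1 u).1))]
        rfl
      · rw [mix_neg _ _ fun u => d (mem_st.1 u).1, Function.comp_apply, mix_neg _ _ fun u => ?_]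
        · rfl
        obtain ⟨u, v⟩ := (mr.1 u).2
        exact d (inr_lf.1 v).choose_spec.1
  · refine le_of_eq_of_le (congrArg (qq _) (funext fun l => ?_)) (qq_msk_le lo.pd (q' := r ∩ r')
      (fun i j hi hj => by_contra fun u => hj ?_) inter_subset_right (mix r' x y - M.p (mix r' x y)))
    · by_cases b : l ∈ r
      · have b1 := (mr.1 b).1
        have sub : ∀ l', M.fc l' ⊆ M.fc l → l' ∈ q ∧ l'.fc ⊆ l.fc := fun l' d =>
          ⟨hq l b1 l' (cub_sub.1 d).1 (cub_sub.1 d).2, (cub_sub.1 d).1⟩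
        by_cases d : Sum.inr (e k) ∈ l.fc
        · rw [msk_pos _ b, msk_pos _ (mem_inter.2 ⟨b, (mr' l b1).2 d⟩), Pi.sub_apply, Pi.sub_apply,
            key x l b1 fun u v => star_eq v d, lo.loc l _ _ fun l' u =>
              key x l' (sub l' u).1 fun u' v => star_eq ((sub l' u).2 v) d]
        · rw [msk_pos _ b, msk_neg _ fun u => d ((mr' l b1).1 (mem_inter.1 u).2), Pi.sub_apply,
            mix_pos _ _ b, msk_neg _ fun u => d ((mr' l b1).1 u), lo.loc l _ (mix r 0 y) fun l' u => ?_,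
            (lin l b).map_zero, sub_zero]
          refine if_congr Iff.rfl (msk_neg _ fun v => d ((sub l' u).2 (mem_lk.1 v).1)) rfl
      · rw [msk_neg _ b, msk_neg _ fun u => b (mem_inter.1 u).1]
    · obtain ⟨u1, u2⟩ := Gam_ne (right_ne_zero_of_mul u)
      obtain ⟨v1, v2⟩ := mem_inter.1 hi
      have v3 := hq i (mr.1 v1).1 j u1.ge (Or.inr u2.symm)
      exact mem_inter.2 ⟨mr.2 ⟨v3, u1 ▸ (mr.1 v1).2⟩, (mr' j v3).2 (u1 ▸ (mem_lk.1 v2).1)⟩

theorem er_b0 {σ : X → ℝ} (a1 : ∀ F o, Kp F o → a F o = sc σ F)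
    (c0 : ∀ l ∈ b0 T cl m O K S P, c l = 0) (e : K) (E : (LT T cl m O → ℤ) → Prop) :
    Er (O.ms cl m Z K S a c) (b0 T cl m O K S P) (fun z => ind (E (z ∘ lk O S e))) =
      dn cl m Z O σ P E := by
  classical
  rw [← b0_image (O₁ := O) (g := id) (h := fun _ => rfl) (k := fun _ : Unit => e)
    (t := (Empty.elim : Empty → S)) (P₁ := P) Function.injective_id (fun _ _ _ => rfl) (by simp)]
  exact (emb_lf Function.injective_id (fun _ _ _ => rfl) (fun u => u.elim) (fun _ => rfl)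
    (fun l hl => (a1 _ _ (kp_lk.2 (mem_b0.1 hl).1)).trans ((sc_image Function.injective_id
      (fun _ _ _ => rfl) fun _ _ => rfl).trans (if_neg ((mem_b0.1 hl).1.2 ())).symm))
    fun l hl => c0 _ (lf_b0 (fun _ u => u) hl)).er fun z => ind (E z)

theorem nr_lk (hT : T.Ok s N) (hZ : Z.Ok) {ω B : ℝ} (a2 : ∀ F o, ¬ Kp F o → a F o = ω) (e e₀ : K)
    {Θ : (LT T cl m O → ℝ) → ℝ} (hΘ : Dp (b0 T cl m O Unit Empty P ∪ st T cl m O P) Θ)
    {y : LK T cl m O K S → ℝ} (h : NL (O.ms cl m Z K S a 0) ((st T cl m O P).image (lk O S e))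
      (fun x => Θ (x ∘ lk O S e)) B y) : NR cl m Z O ω P Θ B (y ∘ lk O S e₀) := by
  have em : Emb (tst cl m Z O (fun _ => 1) ω) (O.ms cl m Z K S a 0) (lk O S e) (st T cl m O P) :=
    emb_lf Function.injective_id (fun _ _ _ => rfl) (fun u => u.elim) (fun _ => rfl)
      (fun l hl => (a2 _ _ fun v => (kp_lk.1 v).2 () (mem_st.1 hl).1).trans
        (if_pos (mem_st.1 hl).1).symm) fun _ _ => rfl
  refine (NR.dp hT hZ hΘ _ _ fun l hl => ?_).mp (em.nl.1 h)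
  exact congrArg y (lf_congr (fun _ _ => rfl) (fun u v => ((mem_b0.1 hl).1.2 u v).elim)
    fun u => u.elim)

/-- **extraction** -/
theorem ext [Fintype κ] (h : Env s N m Z n L η)
    (hn : Fintype.card X + 2 * Fintype.card K + Fintype.card S ≤ n) {σ : X → ℝ} (hσ : Sb s L σ)
    {am ω ρ β : ℝ} (a1 : ∀ F o, Kp F o → a F o = sc σ F)
    (a2 : ∀ F o, ¬ Kp F o → 0 < a F o ∧ a F o ≤ am) (c0 : ∀ l ∈ b0 T cl m O K S P, c l = 0)
    (hL : 8 * am ≤ L) (hρ : 0 ≤ ρ) (hω : 8 * am ≤ ρ ^ 2 * ω) (hβ : 0 < β) (hq : Cq q)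
    (h0 : b0 T cl m O K S P ⊆ q) (hb : ∀ l ∈ q, l.bs = none)
    (hP : ∀ l ∈ q, ∀ x, Sum.inl x ∈ l.fc → P x) (e₀ : K) {e : κ → K} (he : e.Injective)
    {Pk : κ → X → Prop} {Θ : κ → (LT T cl m O → ℝ) → ℝ} (hΘ : ∀ k, Fo cl m O (Pk k) (Θ k))
    (hk : ∀ k x, Pk k x → P x) (hs : ∀ k, ∀ l ∈ st T cl m O (Pk k), lk O S (e k) l ∈ q)
    {E : (LT T cl m O → ℤ) → Prop} {Φ : (LK T cl m O K S → ℤ) → ℂ}
    (hΦ : ∀ z, ‖Φ z‖ ≤ ind (E (z ∘ lk O S e₀))) (dΦ : Dp (b0 T cl m O K S P) Φ) :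
    ‖Ev (O.ms cl m Z K S a c) q fun z => Φ z * ee (∑ k, Θ k (toR z ∘ lk O S (e k)))‖ ≤
      2 * β + dn cl m Z O σ P (fun z => E z ∧
        ∀ k, NR cl m Z O ω P (Θ k) (ρ * √(log (2 / β))) (toR z)) + 6 * √η := by
  classical
  have ha : ∀ A o, 0 < a A o := fun A o => by
    by_cases b : Kp A o
    exacts [a1 A o b ▸ sc_pos hσ.pos A, (a2 A o b).1]
  have am0 : 0 < am := (fun b => b.1.trans_le b.2)
    (a2 {Sum.inr e₀} none fun b => b.2 e₀ (mem_singleton_self _))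
  obtain ⟨a', a3, a4⟩ : ∃ a' : Finset (X ⊕ K) → Option S → ℝ, (∀ F o, Kp F o → a' F o = sc σ F) ∧
      ∀ F o, ¬ Kp F o → a' F o = 8 * am :=
    ⟨fun A o => if Kp A o then sc σ A else 8 * am, fun _ _ b => if_pos b, fun _ _ b => if_neg b⟩
  have ha' : ∀ A o, 0 < a' A o := fun A o => by
    by_cases b : Kp A o
    exacts [a3 A o b ▸ sc_pos hσ.pos A, by linarith [a4 A o b]]
  have hL' : ∀ l : LK T cl m O K S, a' l.fc l.bs ≤ L := fun l => by
    by_cases b : Kp l.fc l.bs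
    exacts [a3 _ _ b ▸ hσ.sc_le' h.ok h.L4 l, a4 _ _ b ▸ hL]
  have hL1 : ∀ l : LK T cl m O K S, a l.fc l.bs ≤ L := fun l => by
    by_cases b : Kp l.fc l.bs
    exacts [a1 _ _ b ▸ hσ.sc_le' h.ok h.L4 l, by linarith [(a2 _ _ b).2]]
  have lo := lo_ms (O := O) h.ok h.zok ha c
  have lo' := lo_ms (O := O) h.ok h.zok ha' (0 : LK T cl m O K S → ℝ)
  have l3 := lo'.heavy' (l1K (c := 0) h hn ha' (fun l _ => hL' l) hq h0 hb hP)
  have id1 : Emb (O.ms cl m Z K S a' 0) (O.ms cl m Z K S a c) id (b0 T cl m O K S P) :=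
    ⟨Function.injective_id, fun i hi j _ => congrArg (· * Gam T _ S m i j)
      ((a1 _ _ (mem_b0.1 hi).1).trans (a3 _ _ (mem_b0.1 hi).1).symm),
      fun z i hi => congrArg (_ + ·) (c0 i hi)⟩
  rw [← id1.er, image_id] at l3
  have u : b0 T cl m O K S P ∪ q \ b0 T cl m O K S P = q := union_sdiff_of_subset h0
  have k := cut lo.toTr ((dc_ms (cq_b0 P)).cl lo) (u.symm ▸ (dc_ms hq).cl lo) disjoint_sdiff
    (fun z => (hΦ z).trans (ind_le _)) dΦ (f := fun z => ee (∑ k, Θ k (toR z ∘ lk O S (e k))))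
    (fun z => (norm_ee _).le) hβ.le (G := fun z => E (z ∘ lk O S e₀) ∧
      ∀ k, NR cl m Z O ω P (Θ k) (ρ * √(log (2 / β))) (toR (z ∘ lk O S e₀))) (fun y d3 d2 => ?_)
    (l1K (c := c) h hn ha (fun l _ => hL1 l) hq h0 hb hP) l3
    ((h.al X K S O a c (by omega) ha hL1).le h.η1 (dc_ms (cq_b0 P)))
  · rw [u, er_b0 a1 c0 e₀ fun z => E z ∧
      ∀ k, NR cl m Z O ω P (Θ k) (ρ * √(log (2 / β))) (toR z)] at k
    linarith
  refine or_iff_not_imp_right.2 fun d1 => ⟨by_contra fun d => d3 (norm_le_zero_iff.1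
    ((hΦ y).trans (ind_neg d).le)), fun k => ?_⟩
  have bi := P057NL.bias _ _ (O.ms cl m Z K S a c) (O.ms cl m Z K S a' 0)
    (q \ b0 T cl m O K S P) y c (fun x => ∑ k, Θ k (x ∘ lk O S (e k))) β lo.pd lo'.toTr
    (fun x i _ => congrArg (· + c i) (add_zero _).symm) (lin_ms h.ok h.zok (fun _ _ => rfl)
      (fun l hl => ⟨hb l ((mem_r hb hP).1 hl).1, ((mem_r hb hP).1 hl).2⟩)
      (fun l hl l' k1 k2 => (mem_r hb hP).trans (and_iff_right
        (hq l ((mem_r hb hP).1 hl).1 l' k1 (Or.inl k2)))) _) (fun v => by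
      rw [← qq_smul_mat]
      refine le_of_eq_of_le ?_ (qq_blk_mono (a := fun A o => 8 * a A o) h.ok.pd v fun l _ => ?_)
      · congr 1; ext i j; exact (mul_assoc _ _ _).symm
      · have b : ¬ Kp l.1.fc l.1.bs := fun b => ((mem_r hb hP).1 l.2).2.elim b.2
        linarith [(a2 _ _ b).2, a4 _ _ b]) (not_lt.1 d1) (lin_sum hb hP hΘ hs _) hβ d2
  exact (nr_lk h.ok h.zok a4 (e k) e₀ ((hΘ k).dp.mono fun l v => mem_bs.2 fun x b =>
    hk k x (mem_bs.1 v x b)) (nl_star h.ok h.zok ha' hq h0 hb hP he hΘ hk hs (sqrt_nonneg _)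
      bi k)).scale h.ok h.zok (sqrt_nonneg _) hρ hω

end

end Vale.Agent.P057EA
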